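import Crest.Agent.R290.FMSim
import Crest.Agent.R317.QP

/-!
# Row 290, task Loop: a polynomial-time step iterated until it is done, as a flat machine

Plan.  `mach_outputs`: adapt the proof of `R317.timeBound_of_prog` to one input.
`fm_of_loop`: take programs `pi` for `ini`, `pw` from `R317.while_cmp` (condition `!done`), `po` for
`fun c => [acc c]`; the program is `aToS; pi; pw; po; pOutLoop; aToS`, started on
`⟨[], x.reverse, [], []⟩` with `x = (enc z).bits` (`ev_aToS` puts `x` on `s`).  Use the least `t₀ ≤ t`
with `done` (`Nat.find`), and `stat` for `step^[t] = step^[t₀]`.  Apply `fm_sim` with `β = true` to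
`⟨mach (fun b => [b]) 1 p, Equiv.refl _, Equiv.refl _⟩`.  The total time is a polynomial in
`sz z + t`; `R317.poly_le_pow` and `frun_halted` give the form `(sz z + t + 2) ^ d`.
-/

set_option autoImplicit false

namespace Crest.Agent.R290

open Crest.Agent.PTime Turing

theorem mach_outputs (p : P) (x out : List Bool) (n : ℕ)
    (h : Ev p ⟨[], x.reverse, [], []⟩ ⟨out, [], [], []⟩ n) :
    Nonempty (TM2OutputsInTime (mach (fun b : Bool => [b]) 1 p) (x.map (Equiv.refl Bool).invFun)
      (some (out.map (Equiv.refl Bool).invFun)) (x.length + n + 2)) := by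
  classical
  set code : Bool → List Bool := fun b => [b] with hcode
  have hw : ∀ g, (code g).length = 1 := fun _ => rfl
  refine ⟨{ steps := (x.length + 1) + n + 1, evals_in_steps := ?_, steps_le_m := ?_ }⟩
  · obtain ⟨v1, h1⟩ := mach_prologue code 1 hw p x [] (none, none)
    obtain ⟨v2, h2⟩ := h.sim (Γ₀ := Bool) (Λ := Bool ⊕ Lab p) (mach code 1 p).m Sum.inr
      (Sum.inl true) (fun l => rfl) v1
    have hfm : x.flatMap code = x := by simp [hcode]
    rw [List.append_nil, hfm] at h1
    have h3 : Steps (Λ := Bool ⊕ Lab p) (mach code 1 p).m 1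
        ⟨some (Sum.inl true), v2, stk [] ⟨out, [], [], []⟩⟩
        ⟨none, (none, none), stk [] ⟨out, [], [], []⟩⟩ := Steps.one rfl
    have h4 := (h1.trans h2).trans h3
    have e1 : initList (mach code 1 p) (List.map (Equiv.refl Bool).invFun x) =
        ⟨some (Sum.inl false), (none, none), stk x ⟨[], [], [], []⟩⟩ := by
      unfold initList
      congr 1
      funext k
      rcases k with _ | k
      · exact (List.map_id _)
      · cases k <;> rfl
    have e2 : haltList (mach code 1 p) (List.map (Equiv.refl Bool).invFun out) =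
        ⟨none, (none, none), stk [] ⟨out, [], [], []⟩⟩ := by
      unfold haltList
      congr 1
      funext k
      rcases k with _ | k
      · rfl
      · cases k
        · exact (List.map_id _)
        all_goals rfl
    refine Eq.trans ?_ (congrArg some e2.symm)
    refine Eq.trans (congrArg (fun c => (flip bind (mach code 1 p).step)^[_] (some c)) e1) ?_
    exact h4
  · show _ ≤ x.length + n + 2
    omega

theorem fm_of_loop {Z σ : Type} [Enc Z] [Enc σ] {ini : Z → σ} {step : σ → σ} {done acc : σ → Bool}
    (h1 : PT ini) (h2 : PT step) (h3 : PT done) (h4 : PT acc)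
    (stat : ∀ c, done c = true → step c = c)
    (grow : ∃ q : Polynomial ℕ, ∀ z i, sz (step^[i] (ini z)) ≤ q.eval (sz z + i)) :
    ∃ (code : FCode) (D d : ℕ), FWF code D ∧ ∀ (z : Z) (t : ℕ), done (step^[t] (ini z)) = true →
      code.length ≤ (frun code D (enc z).bits ((sz z + t + 2) ^ d)).1 ∧
        ((frun code D (enc z).bits ((sz z + t + 2) ^ d)).1 = code.length ↔
          acc (step^[t] (ini z)) = true) := by
  classical
  obtain ⟨q, hq⟩ := grow
  obtain ⟨pw, qw, hw⟩ := R317.while_cmp (f := step) (c := fun s => !done s) h2 (by fun_prop)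
  obtain ⟨pi, qi, hi⟩ := h1
  obtain ⟨po, qo, ho⟩ : PT (fun c : σ => [acc c]) := by fun_prop
  set p : P := .seq aToS (.seq pi (.seq pw (.seq po (.seq pOutLoop aToS)))) with hp
  obtain ⟨code, D, C, hwf, hsim⟩ :=
    fm_sim ⟨mach (fun b : Bool => [b]) 1 p, Equiv.refl _, Equiv.refl _⟩ true
  obtain ⟨d, hd⟩ := R317.poly_le_pow (Polynomial.C C * (3 * Polynomial.X + qi +
    (Polynomial.X + 1) * qw.comp q + qo.comp q + 18))
  refine ⟨code, D, d, hwf, fun z t ht => ?_⟩
  have hex : ∃ n, done (step^[n] (ini z)) = true := ⟨t, ht⟩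
  set N := Nat.find hex with hN
  have hNt : N ≤ t := Nat.find_min' hex ht
  have hNd : done (step^[N] (ini z)) = true := Nat.find_spec hex
  have hfix : step^[t] (ini z) = step^[N] (ini z) := by
    obtain ⟨k, rfl⟩ := Nat.exists_eq_add_of_le hNt
    rw [add_comm, Function.iterate_add_apply]
    exact Function.iterate_fixed (stat _ hNd) k
  set B := q.eval (sz z + t) with hB
  have hbd : ∀ i, i ≤ N → sz (step^[i] (ini z)) ≤ B := fun i hi' =>
    (hq z i).trans (eval_mono q (by omega))
  have e1 := ev_aToS (enc z).bits.reverse [] [] []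
  have e2 := hi z []
  have e3 := hw (ini z) N B
    (fun i hi' => by simpa using Nat.find_min hex hi') (by simpa using hNd) hbd []
  have e4 := ho (step^[N] (ini z)) []
  have e5 := ev_pOutLoop [acc (step^[N] (ini z))] []
  have e6 := ev_aToS [acc (step^[N] (ini z))] [] [] []
  simp only [List.reverse_reverse, List.append_nil, List.reverse_singleton, List.length_reverse,
    T.length_bits, List.length_singleton] at e1 e2 e3 e4 e5 e6
  obtain ⟨n, hn, hev⟩ := e1.seq (e2.seq (e3.seq (e4.seq (e5.seq e6))))
  obtain ⟨ho⟩ := mach_outputs p (enc z).bits [acc (step^[N] (ini z))] n hev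
  obtain ⟨r1, r2⟩ := hsim (enc z).bits (acc (step^[N] (ini z))) _ ho
  have hle : C * ((enc z).bits.length + n + 2 + 1) ≤ (sz z + t + 2) ^ d := by
    refine le_trans ?_ (hd (sz z + t))
    simp only [Polynomial.eval_add, Polynomial.eval_mul, Polynomial.eval_X, Polynomial.eval_C,
      Polynomial.eval_comp, Polynomial.eval_ofNat, Polynomial.eval_one, ← hB]
    refine Nat.mul_le_mul_left _ ?_
    have a1 := eval_mono qi (Nat.le_add_right (sz z) t)
    have a2 := eval_mono qo (hbd N le_rfl)
    have a3 : (N + 1) * qw.eval B ≤ (sz z + t + 1) * qw.eval B :=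
      Nat.mul_le_mul_right _ (by omega)
    have a4 : (enc z).size = sz z := rfl
    rw [T.length_bits, a4]
    rw [a4] at hn
    omega
  rw [frun_halted r1 hle, hfix]
  exact ⟨r1, r2⟩

end Crest.Agent.R290
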