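import Crest.Agent.R290.Pipe
import Crest.Agent.R290.Loop
import Crest.Agent.R290.USim
import Crest.Agent.R290.DiagNum

/-!
# Row 290: the diagonal argument
-/

set_option autoImplicit false

namespace Crest.Agent.R290

open Crest.Agent.PTime Crest.WLRefine

variable {A σ : Type} [Enc A] [Enc σ]

/-- seeds: code, number of stacks, parameter, `m`, `s`, `n` -/
abbrev Seed (A : Type) : Type := FCode × U × A × U × U × ℕ

/-- the pipeline input of a seed -/
def sz0 (z : Seed A) : PIn := (z.1, z.2.1, (enc z).bits, z.2.2.2.1, z.2.2.2.2.1)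

theorem PT.sz0 : PT (sz0 : Seed A → PIn) := by
  have h : PT (fun z : Seed A => (enc z).bits) := PT.tbits.comp PT.enc
  unfold R290.sz0
  fun_prop

/-- the capped order -/
def sN (d : ℕ) (z : Seed A) : ℕ := min z.2.2.2.2.2 ((sz z + 2) ^ (d + 1))

/-- the pair code -/
def sY (d : ℕ) (z : Seed A) : List Bool :=
  codeF (sN d z) (padF (pN (sz0 z)) (pF (sz0 z) false)) ++
    codeF (sN d z) (padF (pN (sz0 z)) (pF (sz0 z) true))

theorem diag (S : USim A σ) : ∃ c : ℝ, 0 < c ∧ ∃ k₀ : ℕ, ∀ k ≥ k₀,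
    ∀ E : (n : ℕ) → (Fin n → Fin n → Bool) → (Fin n → Fin n → Bool) → Prop,
      (∀ n G H, Game (k + 1) G H → E n G H) → (∀ n G H, 0 < n → E n G H → Sim k G H) →
      ∀ (a : A) (C : ℕ) (T : ℕ → ℕ),
        (∀ n G H, SimpleConnDiamTwo G → SimpleConnDiamTwo H →
          S.done (S.run a n (adjMatrixCode G ++ adjMatrixCode H) (C * (T n + 1))) = true ∧
          (S.acc (S.run a n (adjMatrixCode G ++ adjMatrixCode H) (C * (T n + 1))) = true ↔ E n G H)) →
        ∃ n₀ : ℕ, ∀ n ≥ n₀, (n : ℝ) ^ (c * k) ≤ T n := by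
  obtain ⟨d, hd⟩ := R317.PB.le_pow (PT.pN (PT.sz0 (A := A))).2
  have hN1 : PT (sN d : Seed A → ℕ) := by unfold sN; fun_prop
  have hN2 : PB (sN d : Seed A → ℕ) := by unfold sN; fun_prop
  have hY : PT (sY d : Seed A → List Bool) :=
    (PT.padcode PT.sz0 hN1 hN2 false).append (PT.padcode PT.sz0 hN1 hN2 true)
  have hin : PT (fun z : Seed A => ((z.2.2.1, (⟨sN d z⟩ : U), sY d z) : A × U × List Bool)) := by
    fun_prop
  obtain ⟨q, hq⟩ := S.grow
  obtain ⟨q', hq'⟩ := hin.pb_sz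
  obtain ⟨code, D, d₁, hwf, hrun⟩ := fm_of_loop
    (ini := fun z : Seed A => S.init (z.2.2.1, ⟨sN d z⟩, sY d z)) (S.pt_init.comp hin) S.pt_step
    S.pt_done S.pt_acc S.stat ⟨q.comp (q' + Polynomial.X), fun z i => by
      refine (hq _ i).trans ?_
      rw [Polynomial.eval_comp]
      refine eval_mono q ?_
      have h1 := hq' z
      dsimp only at h1
      have h2 := eval_mono q' (Nat.le_add_right (sz z) i)
      simp only [Polynomial.eval_add, Polynomial.eval_X]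
      omega⟩
  obtain ⟨c, hc, k₀, hk₀⟩ := diag_num d d₁
  refine ⟨c, hc, max k₀ 40, fun k hk E hE1 hE2 a C T hT => ?_⟩
  have hk1 : k₀ ≤ k := le_of_max_le_left hk
  have hk2 : 40 ≤ k := le_of_max_le_right hk
  set s := (k - 3) / 2 with hs
  obtain ⟨n₀, hn₀⟩ := hk₀ k hk1 C (sz code + sz (⟨D⟩ : U) + sz a + 2 * s + 8)
  refine ⟨n₀, fun n hn => ?_⟩
  by_contra hlt
  obtain ⟨m, hm, hL⟩ := hn₀ n hn (T n) (not_le.1 hlt)
  set z : Seed A := (code, ⟨D⟩, a, ⟨m⟩, ⟨s⟩, n) with hz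
  have hsz : sz z = sz code + sz (⟨D⟩ : U) + sz a + (2 * m + 1) + (2 * s + 1) + sz n + 5 := by
    simp only [hz, sz_pair, sz_U]; omega
  have hszn : sz n ≤ 4 * n.size + 1 := sz_le_of_lt (Nat.lt_size_self n)
  obtain ⟨h1, h2, h3⟩ := hL (sz z) (by omega) (by omega)
  have hsN : sN d z = n := min_eq_left h2
  have hNn : pN (sz0 z) < n := (hd z).trans_lt h1
  have hp : ∀ b, SimpleConnDiamTwo (mat n (padF (pN (sz0 z)) (pF (sz0 z) b))) := fun b =>
    pad_promise (p_promise _ b).1 hNn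
  obtain ⟨h4, h5⟩ := hT n _ _ (hp false) (hp true)
  have hrw : S.run a n (adjMatrixCode (mat n (padF (pN (sz0 z)) (pF (sz0 z) false))) ++
      adjMatrixCode (mat n (padF (pN (sz0 z)) (pF (sz0 z) true)))) (C * (T n + 1)) =
      S.step^[C * (T n + 1)] (S.init (z.2.2.1, ⟨sN d z⟩, sY d z)) := by
    rw [USim.run, adjMatrixCode_mat, adjMatrixCode_mat, sY, hsN]
  rw [hrw] at h4 h5
  obtain ⟨h6, h7⟩ := hrun z _ h4
  have hg : PGood (sz0 z) (E n (mat n (padF (pN (sz0 z)) (pF (sz0 z) false)))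
      (mat n (padF (pN (sz0 z)) (pF (sz0 z) true)))) := by
    refine ⟨hwf, hm, by show 1 ≤ s; omega, _, h6, ?_, h7.trans h5⟩
    show (enc z).bits.length + _ + 2 ≤ m ^ (s / 600)
    rw [PTime.T.length_bits]
    exact h3
  by_cases he : E n (mat n (padF (pN (sz0 z)) (pF (sz0 z) false)))
      (mat n (padF (pN (sz0 z)) (pF (sz0 z) true)))
  · refine p_not_sim hg he (k := k) (by show 2 * s + 3 ≤ k; omega) ?_
    exact pad_sim (p_five _) hNn (p_deg _ false) (p_deg _ true) (hE2 n _ _ (by omega) he)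
  · exact he (hE1 n _ _ (pad_game (p_game hg he (by show 3 * (k + 1) ≤ 7 * s; omega)) hNn))

end Crest.Agent.R290
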