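import Crest.Agent.R290.ExpMem_0

/-!
# Row 290, task ExpMemA: the two equivalence problems are in EXPTIME

Plan.  Parse `x` as `k, n, l₁ = take (n*n), n', l₂` with `parseNat` and check
`n ≤ x.length`, `l₁.length = l₂.length = n * n` and
`x = natCode k ++ (natCode n ++ l₁) ++ (natCode n ++ l₂)` (orders must agree: `jEquiv_card`).  Replace
`k` by `k' = min k (max n 2)`: `JEquiv k ↔ JEquiv k'` by `jEquiv_iff_iso`.  `n ^ k' ≤ 2 ^ ((|x|+2)^2)`.
Use `bitsOf_mat_bm`, `mat_bm_bitsOf`, `mem_varDimEquivLang`, `inEXP_of_pad`.  Simplicity and degrees are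
bounded quantifiers.  Connectedness of a simple graph on `n > 0` vertices: the set reachable from `0`
(iterate `n` times `S ↦ (range n).filter (fun w => w ∈ S ∨ ∃ v ∈ S, adj v w)`; a reachable vertex has a
path of length `< n`) is everything.
-/

set_option autoImplicit false

namespace Crest.Agent.R290

open Crest.Agent.PTime Crest.WLRefine

theorem em_jEquiv_min {n k : ℕ} (hk : 2 ≤ k) (G H : Fin n → Fin n → Bool) :
    JEquiv (min k (max n 2)) G H ↔ JEquiv k G H := by
  rcases le_total k (max n 2) with h | h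
  · rw [min_eq_left h]
  · rw [min_eq_right h, jEquiv_iff_iso (by omega) (by omega), jEquiv_iff_iso (by omega) (by omega)]

theorem em_jdec : ∃ f : U × ℕ × ℕ × List Bool × List Bool → Prop, PT f ∧
    ∀ (K k n : ℕ) (l₁ l₂ : List Bool), 2 ^ ((n + 2) ^ 2) ≤ K →
      (f (⟨K⟩, k, n, l₁, l₂) ↔ 2 ≤ k ∧ IsSimple (mat n (bm n l₁)) ∧ IsSimple (mat n (bm n l₂)) ∧
        JEquiv k (mat n (bm n l₁)) (mat n (bm n l₂))) := by
  obtain ⟨f, hf, h⟩ := exists_jdec
  refine ⟨fun p => 2 ≤ p.2.1 ∧ emSimple (min p.2.2.1 p.1.val) p.2.2.2.1 ∧ emSimple (min p.2.2.1 p.1.val) p.2.2.2.2 ∧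
    f (p.1, min p.2.1 (max p.2.2.1 2), p.2.2), PT.and (by fun_prop) (PT.and
      (PT.emSimple (by fun_prop) (PB.min_right (by fun_prop)) (by fun_prop)) (PT.and
      (PT.emSimple (by fun_prop) (PB.min_right (by fun_prop)) (by fun_prop)) (hf.comp (by fun_prop)))),
    fun K k n l₁ l₂ hK => ?_⟩
  obtain ⟨b1, -, b3⟩ := em_bounds hK
  simp only [min_eq_left (show n ≤ K by omega), emSimple_iff]
  refine and_congr_right fun hk => ?_
  rw [h K _ n l₁ l₂ (b3 _ (min_le_right _ _)) (by omega) (by omega), em_jEquiv_min hk]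

theorem varDim_inEXP : Crest.ExpTime.InEXP varDimEquivLang := by
  obtain ⟨f, hf, h⟩ := em_jdec
  refine em_inEXP2 (fun k _ G H => 2 ≤ k ∧ IsSimple G ∧ IsSimple H ∧ JEquiv k G H) ?_
    (fun k n G H => mem_varDimEquivLang G H) hf h
  rintro x ⟨k, n, m, G, H, h1, -, -, h2, rfl⟩
  obtain rfl := jEquiv_card (by omega) h2
  exact ⟨k, n, G, H, rfl⟩

def emDeg (n : ℕ) (l : List Bool) : Prop := ∀ v < n, (List.range n).countP (fun w => bm n l v w) ≤ 3

theorem PT.emDeg {α : Type} [Enc α] {n : α → ℕ} {l : α → List Bool} (h1 : PT n) (h2 : PB n) (h3 : PT l) :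
    PT fun a => emDeg (n a) (l a) :=
  PT.forall_lt h1 h2 (PT.le (PT.countP (by fun_prop) (PT.range (by fun_prop) (by fun_prop))) (by fun_prop))

theorem emDeg_iff (n : ℕ) (l : List Bool) : emDeg n l ↔ MaxDegLeThree (mat n (bm n l)) := by
  have key : ∀ v : Fin n, (Finset.univ.filter fun w => mat n (bm n l) v w = true).card =
      (List.range n).countP (fun w => bm n l v w) := by
    intro v
    have hu2 : (Finset.univ : Finset (Fin n)).val = (List.finRange n : Multiset _) := rfl
    have hu3 : List.range n = (List.finRange n).map Fin.val := by simp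
    rw [Finset.card_def, Finset.filter_val, hu2, Multiset.filter_coe, Multiset.coe_card, hu3, List.countP_map,
      List.countP_eq_length_filter]
    simp only [Bool.decide_eq_true]
    rfl
  exact ⟨fun h v => key v ▸ h v v.2, fun h v hv => key ⟨v, hv⟩ ▸ h ⟨v, hv⟩⟩

def emStep (n : ℕ) (l : List Bool) (S : List ℕ) : List ℕ :=
  (List.range n).filter fun w => S.any fun v => decide (v = w) || bm n l v w || bm n l w v

theorem mem_emStep {n : ℕ} {l : List Bool} {S : List ℕ} {w : ℕ} :
    w ∈ emStep n l S ↔ w < n ∧ ∃ v ∈ S, v = w ∨ bm n l v w = true ∨ bm n l w v = true := by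
  simp [emStep, or_assoc]

def emConn (n : ℕ) (l : List Bool) : Prop := 0 < n ∧ ∀ w < n, w ∈ (emStep n l)^[n] [0]

theorem PT.emConn {α : Type} [Enc α] {n : α → ℕ} {l : α → List Bool} (h1 : PT n) (h2 : PB n) (h3 : PT l) :
    PT fun a => emConn (n a) (l a) := by
  have hs : PT fun p : α × List ℕ => emStep (n p.1) (l p.1) p.2 :=
    PT.filter (PT.any (by fun_prop) (by fun_prop)) (PT.range (by fun_prop) (by fun_prop))
  have hi := PT.iterate (f := fun a => emStep (n a) (l a)) (init := fun _ => [0]) hs (PT.const _) h1 h2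
    (B := fun a => sz (List.range (n a)) + sz [0]) ((PB.sz (h1.range h2)).add (PB.const _)) fun a i _ => by
      rcases i with _ | i
      · simp
      · rw [Function.iterate_succ_apply']
        exact (sz_sublist List.filter_sublist).trans (Nat.le_add_right _ _)
  exact PT.and (by fun_prop) (PT.forall_lt h1 h2 (PT.mem (by fun_prop) (hi.comp (g := Prod.fst) (by fun_prop))))

theorem emConn_iff (n : ℕ) (l : List Bool) : emConn n l ↔ (adjGraph (mat n (bm n l))).Connected := by
  constructor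
  · rintro ⟨h0, h⟩
    have key : ∀ i, ∀ w ∈ (emStep n l)^[i] [0], ∃ hw : w < n,
        (adjGraph (mat n (bm n l))).Reachable ⟨0, h0⟩ ⟨w, hw⟩ := by
      intro i
      induction i with
      | zero =>
        intro w hw
        obtain rfl : w = 0 := by simpa using hw
        exact ⟨h0, SimpleGraph.Reachable.refl _⟩
      | succ i ih =>
        intro w hw
        rw [Function.iterate_succ_apply', mem_emStep] at hw
        obtain ⟨hw, v, hv, h⟩ := hw
        obtain ⟨hv', hr⟩ := ih v hv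
        refine ⟨hw, ?_⟩
        by_cases e : v = w
        · subst e; exact hr
        · refine hr.trans (SimpleGraph.Adj.reachable ?_)
          rw [adjGraph, SimpleGraph.fromRel_adj]
          exact ⟨fun e' => e (congrArg Fin.val e'), h.resolve_left e⟩
    rw [SimpleGraph.connected_iff_exists_forall_reachable]
    exact ⟨⟨0, h0⟩, fun w => (key n w (h w w.2)).2⟩
  · intro h
    have h0 : 0 < n := Fin.pos_iff_nonempty.2 h.nonempty
    have mono : ∀ (i : ℕ) (S : List ℕ) (u : Fin n), u.val ∈ S → u.val ∈ (emStep n l)^[i] S := by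
      intro i
      induction i with
      | zero => exact fun S u hu => hu
      | succ i ih => exact fun S u hu => ih _ u (mem_emStep.2 ⟨u.2, u, hu, Or.inl rfl⟩)
    have key : ∀ (u w : Fin n) (p : (adjGraph (mat n (bm n l))).Walk u w) (i : ℕ) (S : List ℕ), p.length ≤ i →
        u.val ∈ S → w.val ∈ (emStep n l)^[i] S := by
      intro u w p
      induction p with
      | nil => exact fun i S _ hu => mono i S _ hu
      | @cons u v w huv p ih =>
        intro i S hi hu
        obtain ⟨i, rfl⟩ : ∃ j, i = j + 1 := ⟨i - 1, by simp at hi; omega⟩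
        rw [adjGraph, SimpleGraph.fromRel_adj] at huv
        exact ih i _ (by simpa using hi) (mem_emStep.2 ⟨v.2, u, hu, Or.inr huv.2⟩)
    refine ⟨h0, fun w hw => ?_⟩
    obtain ⟨p, hp⟩ := (h.preconnected ⟨0, h0⟩ ⟨w, hw⟩).exists_isPath
    exact key _ _ p n [0] (by simpa using hp.length_lt.le) (by simp)

theorem subcubic_inEXP : Crest.ExpTime.InEXP subcubicVarDimEquivLang := by
  obtain ⟨f, hf, h⟩ := em_jdec
  refine em_inEXP2 (fun k n G H => 2 ≤ k ∧ 0 < n ∧ SimpleConnSubcubic G ∧ SimpleConnSubcubic H ∧ JEquiv k G H) ?_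
    (fun k n G H => mem_subcubicVarDimEquivLang G H)
    (q := fun p => f p ∧ (emConn (min p.2.2.1 p.1.val) p.2.2.2.1 ∧ emDeg (min p.2.2.1 p.1.val) p.2.2.2.1) ∧
      emConn (min p.2.2.1 p.1.val) p.2.2.2.2 ∧ emDeg (min p.2.2.1 p.1.val) p.2.2.2.2)
    (hf.and (PT.and
      (PT.and (PT.emConn (by fun_prop) (PB.min_right (by fun_prop)) (by fun_prop))
        (PT.emDeg (by fun_prop) (PB.min_right (by fun_prop)) (by fun_prop)))
      (PT.and (PT.emConn (by fun_prop) (PB.min_right (by fun_prop)) (by fun_prop))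
        (PT.emDeg (by fun_prop) (PB.min_right (by fun_prop)) (by fun_prop))))) fun K k n l₁ l₂ hK => ?_
  · rintro x ⟨k, n, G, H, -, -, -, -, -, rfl⟩
    exact ⟨k, n, G, H, rfl⟩
  · obtain ⟨b1, -, -⟩ := em_bounds hK
    simp only [min_eq_left (show n ≤ K by omega), emConn_iff, emDeg_iff, h K k n l₁ l₂ hK, SimpleConnSubcubic]
    constructor
    · rintro ⟨⟨a1, a2, a3, a4⟩, ⟨a5, a6⟩, a7, a8⟩
      exact ⟨a1, Fin.pos_iff_nonempty.2 a5.nonempty, ⟨a2, a5, a6⟩, ⟨a3, a7, a8⟩, a4⟩
    · rintro ⟨a1, -, ⟨a2, a5, a6⟩, ⟨a3, a7, a8⟩, a4⟩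
      exact ⟨⟨a1, a2, a3, a4⟩, ⟨a5, a6⟩, a7, a8⟩

end Crest.Agent.R290
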