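import Crest.Agent.R290.ExpMem_0

/-!
# Row 290, task ExpMemB: the identification problem is in EXPTIME

Plan.  Parse `x` as `k, n, l` and check by re-encoding.  With `N = max n 2`:
`(∃ k', 1 ≤ k' ≤ k ∧ Identifies k' G) ↔ ∃ k', 1 ≤ k' ≤ min k N ∧ Identifies k' G` (dimension `N`
identifies every graph, `jEquiv_iff_iso`), and `Identifies k' G ↔` for all bit lists `l₂` of length
`n * n` (enumerate `i < min (2 ^ (n*n)) K`, bit `j` is `i / 2 ^ j % 2 = 1`) with simple matrix `H`,
`WLEquiv k' G H → JEquiv N G H` (orders agree by `jEquiv_card`, `crEquiv_card`).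
-/

set_option autoImplicit false

namespace Crest.Agent.R290

open Crest.Agent.PTime Crest.WLRefine

def emBits (m i : ℕ) : List Bool := (List.range m).map fun j => decide (i / 2 ^ j % 2 = 1)

theorem PT.emBits {α : Type} [Enc α] {m i : α → ℕ} (h1 : PT m) (h2 : PB m) (h3 : PT i) :
    PT fun a => emBits (m a) (i a) :=
  PT.map_range h1 h2 (by fun_prop)

theorem emBits_surj (l : List Bool) : ∃ i < 2 ^ l.length, emBits l.length i = l := by
  refine ⟨Nat.ofBits fun j : Fin l.length => l[j], Nat.ofBits_lt_two_pow _, ?_⟩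
  refine List.ext_getElem (by simp [emBits]) fun j h1 h2 => ?_
  simp only [emBits, List.getElem_map, List.getElem_range]
  rw [← Nat.testBit_eq_decide_div_mod_eq, Nat.testBit_ofBits_lt _ _ h2]
  rfl

theorem em_identifies {n k : ℕ} (hk : 1 ≤ k) (G : Fin n → Fin n → Bool) :
    Identifies k G ↔ ∀ i < 2 ^ (n * n), IsSimple (mat n (bm n (emBits (n * n) i))) →
      WLEquiv k G (mat n (bm n (emBits (n * n) i))) → JEquiv (max n 2) G (mat n (bm n (emBits (n * n) i))) := by
  simp only [jEquiv_iff_iso (show 1 ≤ max n 2 by omega) (le_max_left n 2)]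
  refine ⟨fun h i _ => h n _, fun h m H h1 h2 => ?_⟩
  obtain rfl : n = m := by
    unfold WLEquiv at h2
    split_ifs at h2
    · exact crEquiv_card h2
    · exact jEquiv_card hk h2
  obtain ⟨i, hi, e⟩ := emBits_surj (bitsOf H)
  rw [length_bitsOf] at hi e
  have := h i hi
  rw [e, mat_bm_bitsOf] at this
  exact this h1 h2

theorem em_exists_dim {n k : ℕ} (G : Fin n → Fin n → Bool) :
    (∃ k', 1 ≤ k' ∧ k' ≤ k ∧ Identifies k' G) ↔ ∃ k' < max n 2 + 1, 1 ≤ k' ∧ k' ≤ k ∧ Identifies k' G := by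
  refine ⟨fun ⟨k', h1, h2, h3⟩ => ?_, fun ⟨k', _, h⟩ => ⟨k', h⟩⟩
  rcases le_total k' (max n 2) with h | h
  · exact ⟨k', by omega, h1, h2, h3⟩
  · refine ⟨max n 2, by omega, by omega, by omega, fun m H _ h4 => ?_⟩
    rw [WLEquiv, if_neg (by omega)] at h4
    exact (jEquiv_iff_iso (by omega) (le_max_left n 2)).1 h4

theorem wlDimLe_inEXP : Crest.ExpTime.InEXP wlDimLeLang := by
  obtain ⟨f, hf, h⟩ := exists_jdec
  obtain ⟨f', hf', h'⟩ := exists_crdec
  have hw : PT fun p : U × ℕ × ℕ × List Bool × List Bool =>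
      emSimple (min p.2.2.1 p.1.val) p.2.2.2.2 → ((p.2.1 = 1 ∧ f' (p.1, p.2.2)) ∨ (¬ p.2.1 = 1 ∧ f p)) →
        f (p.1, max p.2.2.1 2, p.2.2) :=
    PT.imp (PT.emSimple (by fun_prop) (PB.min_right (by fun_prop)) (by fun_prop))
      (PT.imp (PT.or (PT.and (by fun_prop) (hf'.comp (by fun_prop))) (PT.and (by fun_prop) hf))
        (hf.comp (by fun_prop)))
  refine em_inEXP1 (fun k n G => 1 ≤ k ∧ 0 < n ∧ IsSimple G ∧ ∃ k', 1 ≤ k' ∧ k' ≤ k ∧ Identifies k' G) ?_
    (fun k n G => mem_wlDimLeLang G)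
    (q := fun p => 1 ≤ p.2.1 ∧ 0 < p.2.2.1 ∧ emSimple (min p.2.2.1 p.1.val) p.2.2.2 ∧
      ∃ k' < min (max p.2.2.1 2 + 1) p.1.val, 1 ≤ k' ∧ k' ≤ p.2.1 ∧
        ∀ i < min (2 ^ (min p.2.2.1 p.1.val * min p.2.2.1 p.1.val)) p.1.val,
          emSimple (min p.2.2.1 p.1.val) (emBits (min p.2.2.1 p.1.val * min p.2.2.1 p.1.val) i) →
          ((k' = 1 ∧ f' (p.1, p.2.2.1, p.2.2.2, emBits (min p.2.2.1 p.1.val * min p.2.2.1 p.1.val) i)) ∨
            (¬ k' = 1 ∧ f (p.1, k', p.2.2.1, p.2.2.2, emBits (min p.2.2.1 p.1.val * min p.2.2.1 p.1.val) i))) →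
          f (p.1, max p.2.2.1 2, p.2.2.1, p.2.2.2, emBits (min p.2.2.1 p.1.val * min p.2.2.1 p.1.val) i))
    ?_ fun K k n l hK => ?_
  · rintro x ⟨k, n, G, -, -, -, -, rfl⟩
    exact ⟨k, n, G, rfl⟩
  · have hb : PB fun p : U × ℕ × ℕ × List Bool => min p.2.2.1 p.1.val * min p.2.2.1 p.1.val :=
      (PB.min_right (by fun_prop)).mul (PB.min_right (by fun_prop))
    refine PT.and (by fun_prop) (PT.and (by fun_prop) (PT.and
      (PT.emSimple (by fun_prop) (PB.min_right (by fun_prop)) (by fun_prop))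
      (PT.exists_lt (by fun_prop) (PB.min_right (by fun_prop)) (PT.and (by fun_prop) (PT.and (by fun_prop)
        (PT.forall_lt (PT.min (PT.pow (by fun_prop) (by fun_prop) (hb.comp (g := Prod.fst) (by fun_prop)))
          (by fun_prop)) (PB.min_right (by fun_prop)) ?_))))))
    have he : PT fun x : ((U × ℕ × ℕ × List Bool) × U) × U =>
        emBits (min x.1.1.2.2.1 x.1.1.1.val * min x.1.1.2.2.1 x.1.1.1.val) x.2.val :=
      PT.emBits (by fun_prop) (hb.comp (g := fun x : ((U × ℕ × ℕ × List Bool) × U) × U => x.1.1) (by fun_prop))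
        (by fun_prop)
    exact hw.comp (g := fun x : ((U × ℕ × ℕ × List Bool) × U) × U => (x.1.1.1, x.1.2.val, x.1.1.2.2.1, x.1.1.2.2.2,
      emBits (min x.1.1.2.2.1 x.1.1.1.val * min x.1.1.2.2.1 x.1.1.1.val) x.2.val))
      (PT.pair (by fun_prop) (PT.pair (by fun_prop) (PT.pair (by fun_prop) (PT.pair (by fun_prop) he))))
  · obtain ⟨b1, b2, b3⟩ := em_bounds hK
    simp only [min_eq_left (show n ≤ K by omega), min_eq_left b2, min_eq_left (show max n 2 + 1 ≤ K by omega),
      emSimple_iff, em_exists_dim]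
    refine and_congr_right fun _ => and_congr_right fun _ => and_congr_right fun _ => exists_congr fun k' =>
      and_congr_right fun h1 => and_congr_right fun h2 => and_congr_right fun _ => ?_
    rw [em_identifies h2]
    refine forall_congr' fun i => forall_congr' fun _ => forall_congr' fun _ => ?_
    rw [h K (max n 2) n _ _ (b3 _ le_rfl) (by omega) (by omega), h K k' n _ _ (b3 _ (by omega)) (by omega) (by omega),
      h' K n _ _ (by omega), WLEquiv]
    split_ifs with h3 <;> simp [h3]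

end Crest.Agent.R290
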