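import Crest.Agent.R317.QP
import Crest.Prelude.Def_ExpTime

/-!
# Row 290, task ExpPad: the padding bridge to `InEXP`

Plan.  As `R317.timeBound_of_PT`: double a unary list `e x = (x.length + 2) ^ κ` times
(`R317.while_cmp`), then run `g`; the output `[b]` is `Computability.encodeBool b`
(`R317.timeBound_of_prog` gives a machine for `fun x => [b x]`; rebuild it as a `TimeBoundPred`, the
structure fields are the same).  The time is `≤ 2 ^ (poly x.length) ≤ c * 2 ^ (n ^ k) + c`.
-/

set_option autoImplicit false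

namespace Crest.Agent.R290

open Crest.Agent.PTime

theorem timeBoundPred_of {f : List Bool → Bool} {t : ℕ → ℕ}
    (h : Crest.DTime.TimeBound (fun x => [f x]) t) : Crest.DTime.TimeBoundPred f t := by
  obtain ⟨M, hM⟩ := h
  exact ⟨⟨M.toTM2ComputableAux, M.time, M.outputsFun⟩, hM⟩

theorem exp_absorb (a : ℕ) : ∃ k c, ∀ n : ℕ, 2 ^ ((n + 2) ^ a) ≤ c * 2 ^ (n ^ k) + c := by
  refine ⟨2 * a, 2 ^ (3 ^ a), fun n => ?_⟩
  rcases Nat.lt_or_ge n 2 with h | h
  · have : 2 ^ ((n + 2) ^ a) ≤ 2 ^ (3 ^ a) :=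
      Nat.pow_le_pow_right (by norm_num) (Nat.pow_le_pow_left (by omega) _)
    omega
  · have h1 : (n + 2) ^ a ≤ n ^ (2 * a) := by
      rw [pow_mul]; exact Nat.pow_le_pow_left (by nlinarith) _
    have h2 : 2 ^ ((n + 2) ^ a) ≤ 2 ^ (n ^ (2 * a)) := Nat.pow_le_pow_right (by norm_num) h1
    have h3 : 2 ^ (n ^ (2 * a)) ≤ 2 ^ (3 ^ a) * 2 ^ (n ^ (2 * a)) :=
      Nat.le_mul_of_pos_left _ (by positivity)
    exact (h2.trans h3).trans (Nat.le_add_right _ _)

theorem inEXP_of_pad {L : Set (List Bool)} {g : U × List Bool → Prop} (hg : PT g) (κ : ℕ)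
    (h : ∀ (x : List Bool) (K : ℕ), 2 ^ ((x.length + 2) ^ κ) ≤ K → (g (⟨K⟩, x) ↔ x ∈ L)) :
    Crest.ExpTime.InEXP L := by
  classical
  set e : List Bool → ℕ := fun x => (x.length + 2) ^ κ with he
  have he1 : PT e := by rw [he]; fun_prop
  have he2 : PB e := by rw [he]; fun_prop
  set F : List Bool × List Unit × List Unit → List Bool × List Unit × List Unit :=
    fun s => (s.1, s.2.1.tail, s.2.2 ++ s.2.2) with hF
  have hiter : ∀ (x : List Bool) (N i : ℕ), F^[i] (x, List.replicate N (), [()]) =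
      (x, List.replicate (N - i) (), List.replicate (2 ^ i) ()) := by
    intro x N i
    induction i with
    | zero => simp
    | succ i ih =>
      rw [Function.iterate_succ_apply', ih, hF]
      simp [pow_succ, mul_two, Nat.sub_add_eq]
  obtain ⟨pw, qw, hw⟩ := R317.while_cmp (f := F) (c := fun s => !s.2.1.isEmpty)
    (by rw [hF]; fun_prop) (by fun_prop)
  obtain ⟨pi, qi, hi⟩ : PT (fun x : List Bool => (x, List.replicate (e x) (), [()])) := by fun_prop
  have hg' : PT (fun s : List Bool × List Unit × List Unit =>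
      [decide (g (⟨s.2.2.length⟩, s.1))]) :=
    (PT.decide (hg.comp (PT.pair (PT.ulength (by fun_prop)) (by fun_prop)))).cons (PT.const [])
  obtain ⟨po, qo, ho⟩ := hg'
  have hsz : ∀ j, sz (List.replicate j ()) = 2 * j + 1 := fun j => sz_U ⟨j⟩
  set Bf : ℕ → ℕ := fun n => 4 * n + 2 * (n + 2) ^ κ + 2 * 2 ^ ((n + 2) ^ κ) + 5 with hB
  have hbd : ∀ x i, i ≤ e x → sz (F^[i] (x, List.replicate (e x) (), [()])) ≤ Bf x.length := by
    intro x i hi
    rw [hiter, sz_pair, sz_pair, hsz, hsz]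
    have := Nat.pow_le_pow_right (n := 2) (by norm_num) hi
    have := sz_bits_le x
    simp only [hB, he] at *; omega
  set Q : Polynomial ℕ := qi + ((Polynomial.X + 1) * qw + 1) + qo + 10 * Polynomial.X + 30 with hQ
  obtain ⟨j, hj⟩ := R317.poly_le_pow Q
  obtain ⟨k, c, hkc⟩ := exp_absorb (κ + j + 4)
  have hQle : ∀ n, Q.eval (Bf n) ≤ c * 2 ^ (n ^ k) + c := by
    intro n
    refine (hj _).trans (le_trans ?_ (hkc n))
    have h1 : (n + 2) ^ κ < 2 ^ ((n + 2) ^ κ) := Nat.lt_two_pow_self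
    have h2 : n < 2 ^ n := Nat.lt_two_pow_self
    have h3 : 1 ≤ (n + 2) ^ κ := Nat.one_le_pow _ _ (by omega)
    have h4 : Bf n + 2 ≤ 2 ^ ((n + 2) ^ κ + n + 4) := by
      simp only [hB]
      rw [pow_add, pow_add]
      nlinarith
    refine (Nat.pow_le_pow_left h4 j).trans ?_
    rw [← pow_mul]
    refine Nat.pow_le_pow_right (by norm_num) ?_
    have h5 : j < (n + 2) ^ j := (Nat.lt_two_pow_self).trans_le (Nat.pow_le_pow_left (by omega) _)
    have h6 : (n + 2) ^ κ + n + 4 ≤ (n + 2) ^ κ * (n + 2) ^ 4 := by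
      have : n + 5 ≤ (n + 2) ^ 4 := by nlinarith [Nat.zero_le (n ^ 2), Nat.zero_le (n ^ 3), Nat.zero_le (n ^ 4)]
      nlinarith
    calc ((n + 2) ^ κ + n + 4) * j ≤ ((n + 2) ^ κ * (n + 2) ^ 4) * (n + 2) ^ j :=
          Nat.mul_le_mul h6 h5.le
      _ = _ := by ring
  refine ⟨k, fun x => decide (g (⟨2 ^ e x⟩, x)), c, timeBoundPred_of ?_,
    fun x => by simpa using (h x _ le_rfl).symm⟩
  refine R317.timeBound_of_prog _ (.seq pIn (.seq (.seq pi (.seq pw po)) (.seq pOutLoop aToS)))
    (fun n => c * 2 ^ (n ^ k) + c - (n + 2)) _ (fun n => ?_) fun x => ?_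
  · have h1 := hQle n
    have h2 : n + 2 ≤ Q.eval (Bf n) := by
      simp only [hQ, Polynomial.eval_add, Polynomial.eval_mul, Polynomial.eval_X,
        Polynomial.eval_ofNat, hB]
      omega
    dsimp only
    omega
  have h1 := hw (x, List.replicate (e x) (), [()]) (e x) (Bf x.length)
    (fun i hi => by rw [hiter]; simp; omega) (by rw [hiter]; simp) (hbd x)
  have h2 := ho (F^[e x] (x, List.replicate (e x) (), [()]))
  have h3 := eval_mono qo (hbd x (e x) le_rfl)
  have h4 := h2 []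
  have h5 := h1 []
  have h6 := hi x []
  rw [hiter] at h4 h5 h3
  simp only [List.length_replicate] at h4
  have a1 := ev_pIn_loop x.reverse []
  have a3 := ev_pOutLoop [decide (g (⟨2 ^ e x⟩, x))] []
  have a4 := ev_aToS [decide (g (⟨2 ^ e x⟩, x))].reverse [] [] []
  simp only [List.reverse_reverse, List.append_nil] at a1 a3 a4 h4 h5 h6
  have a5 := ((EvLe.push .s false ⟨[], x.reverse, [], []⟩).seq a1).seq
    ((h6.seq (h5.seq h4)).seq (a3.seq a4))
  refine EvLe.mono a5 ?_
  have b1 := hQle x.length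
  have b2 : sz x ≤ Bf x.length := by have := sz_bits_le x; simp only [hB]; omega
  have b3 := eval_mono qi b2
  have b4 : e x ≤ Bf x.length := by simp only [hB, he]; omega
  have b5 : (e x + 1) * qw.eval (Bf x.length) ≤ (Bf x.length + 1) * qw.eval (Bf x.length) :=
    Nat.mul_le_mul_right _ (by omega)
  have b6 : x.length ≤ Bf x.length := by simp only [hB]; omega
  simp only [hQ, Polynomial.eval_add, Polynomial.eval_mul, Polynomial.eval_X,
    Polynomial.eval_ofNat, Polynomial.eval_one] at b1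
  simp only [List.length_reverse, List.length_cons, List.length_nil]
  omega

end Crest.Agent.R290
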