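import Crest.Agent.R290.RefJ
import Crest.Agent.R290.ExpPad
import Crest.Agent.R290.WLSim

/-!
# Row 290, common lemmas for ExpMemA and ExpMemB
-/

set_option autoImplicit false

namespace Crest.Agent.R290

open Crest.Agent.PTime Crest.WLRefine Crest.Enc

variable {α : Type} [Enc α]

@[fun_prop] theorem PT.em_bm {n i j : α → ℕ} {l : α → List Bool} (h1 : PT n) (h2 : PT l) (h3 : PT i) (h4 : PT j) :
    PT fun a => bm (n a) (l a) (i a) (j a) := by
  unfold bm; fun_prop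

def emSimple (n : ℕ) (l : List Bool) : Prop := ∀ v < n, (∀ w < n, bm n l v w = bm n l w v) ∧ bm n l v v = false

theorem PT.emSimple {n : α → ℕ} {l : α → List Bool} (h1 : PT n) (h2 : PB n) (h3 : PT l) :
    PT fun a => emSimple (n a) (l a) :=
  PT.forall_lt h1 h2 (PT.and (PT.forall_lt (by fun_prop) (by fun_prop) (by fun_prop)) (by fun_prop))

theorem emSimple_iff (n : ℕ) (l : List Bool) : emSimple n l ↔ IsSimple (mat n (bm n l)) :=
  ⟨fun h => ⟨fun v w => (h v v.2).1 w w.2, fun v => (h v v.2).2⟩,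
    fun h v hv => ⟨fun w hw => h.1 ⟨v, hv⟩ ⟨w, hw⟩, h.2 ⟨v, hv⟩⟩⟩

theorem em_bounds {n K : ℕ} (h : 2 ^ ((n + 2) ^ 2) ≤ K) :
    n + 3 ≤ K ∧ 2 ^ (n * n) ≤ K ∧ ∀ k ≤ max n 2, n ^ k ≤ K := by
  refine ⟨le_trans ?_ h, le_trans (Nat.pow_le_pow_right two_pos (by nlinarith)) h, fun k hk => le_trans ?_ h⟩
  · have := @Nat.lt_two_pow_self ((n + 2) ^ 2)
    nlinarith
  · have h1 : n ≤ 2 ^ (n + 2) := (@Nat.lt_two_pow_self n).le.trans (Nat.pow_le_pow_right two_pos (by omega))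
    calc n ^ k ≤ (2 ^ (n + 2)) ^ k := Nat.pow_le_pow_left h1 k
      _ ≤ (2 ^ (n + 2)) ^ (n + 2) := Nat.pow_le_pow_right (by positivity) (by omega)
      _ = 2 ^ ((n + 2) ^ 2) := by rw [← pow_mul, sq]

theorem em_pad {n K : ℕ} {x : List Bool} (h : n * n ≤ x.length) (hK : 2 ^ ((x.length + 2) ^ 2) ≤ K) :
    2 ^ ((n + 2) ^ 2) ≤ K := by
  have : n ≤ x.length := (Nat.le_mul_self n).trans h
  exact le_trans (Nat.pow_le_pow_right two_pos (Nat.pow_le_pow_left (by omega) 2)) hK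

theorem em_inEXP2 {L : Set (List Bool)} (Q : ℕ → (n : ℕ) → (Fin n → Fin n → Bool) → (Fin n → Fin n → Bool) → Prop)
    (h1 : ∀ x ∈ L, ∃ (k n : ℕ) (G H : Fin n → Fin n → Bool), x = natCode k ++ adjMatrixCode G ++ adjMatrixCode H)
    (h2 : ∀ k n G H, natCode k ++ adjMatrixCode G ++ adjMatrixCode H ∈ L ↔ Q k n G H)
    {q : U × ℕ × ℕ × List Bool × List Bool → Prop} (hq : PT q)
    (h3 : ∀ K k n l₁ l₂, 2 ^ ((n + 2) ^ 2) ≤ K → (q (⟨K⟩, k, n, l₁, l₂) ↔ Q k n (mat n (bm n l₁)) (mat n (bm n l₂)))) :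
    Crest.ExpTime.InEXP L := by
  let P : List Bool → ℕ × ℕ × List Bool × List Bool := fun x =>
    ((parseNat x).1, (parseNat (parseNat x).2).1,
      (parseNat (parseNat x).2).2.take ((parseNat (parseNat x).2).1 * (parseNat (parseNat x).2).1),
      (parseNat ((parseNat (parseNat x).2).2.drop ((parseNat (parseNat x).2).1 * (parseNat (parseNat x).2).1))).2)
  have hP : PT P := by fun_prop
  have hP2 : ∀ (k n : ℕ) (G H : Fin n → Fin n → Bool),
      P (natCode k ++ adjMatrixCode G ++ adjMatrixCode H) = (k, n, bitsOf G, bitsOf H) := by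
    intro k n G H
    simp only [P, adjMatrixCode_eq, List.append_assoc, parseNat_natCode, ← length_bitsOf G, List.take_left,
      List.drop_left]
  clear_value P
  refine inEXP_of_pad (g := fun p => ((P p.2).2.2.1.length = (P p.2).2.1 * (P p.2).2.1 ∧
    (P p.2).2.2.2.length = (P p.2).2.1 * (P p.2).2.1 ∧
    p.2 = natCode (P p.2).1 ++ (natCode (P p.2).2.1 ++ (P p.2).2.2.1) ++ (natCode (P p.2).2.1 ++ (P p.2).2.2.2)) ∧
    q (p.1, P p.2)) (PT.and (by fun_prop) (hq.comp (by fun_prop))) 2 fun x K hK => ⟨?_, fun hx => ?_⟩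
  · rintro ⟨⟨a1, a2, a3⟩, a4⟩
    simp only at a1 a2 a3 a4
    generalize P x = y at a1 a2 a3 a4
    obtain ⟨k, n, l₁, l₂⟩ := y
    simp only at a1 a2 a3
    have := (h2 _ _ _ _).2 ((h3 K k n l₁ l₂ (em_pad (by rw [a3, ← a1]; simp; omega) hK)).1 a4)
    rwa [adjMatrixCode_eq, adjMatrixCode_eq, bitsOf_mat_bm a1, bitsOf_mat_bm a2, ← a3] at this
  · obtain ⟨k, n, G, H, rfl⟩ := h1 x hx
    simp only [hP2]
    refine ⟨⟨length_bitsOf G, length_bitsOf H, rfl⟩, (h3 K k n _ _ (em_pad ?_ hK)).2 ?_⟩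
    · simp [adjMatrixCode_eq, length_bitsOf]; omega
    · rw [mat_bm_bitsOf, mat_bm_bitsOf]
      exact (h2 _ _ _ _).1 hx

theorem em_inEXP1 {L : Set (List Bool)} (Q : ℕ → (n : ℕ) → (Fin n → Fin n → Bool) → Prop)
    (h1 : ∀ x ∈ L, ∃ (k n : ℕ) (G : Fin n → Fin n → Bool), x = natCode k ++ adjMatrixCode G)
    (h2 : ∀ k n G, natCode k ++ adjMatrixCode G ∈ L ↔ Q k n G)
    {q : U × ℕ × ℕ × List Bool → Prop} (hq : PT q)
    (h3 : ∀ K k n l, 2 ^ ((n + 2) ^ 2) ≤ K → (q (⟨K⟩, k, n, l) ↔ Q k n (mat n (bm n l)))) :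
    Crest.ExpTime.InEXP L := by
  let P : List Bool → ℕ × ℕ × List Bool := fun x => ((parseNat x).1, parseNat (parseNat x).2)
  have hP : PT P := by fun_prop
  have hP2 : ∀ (k n : ℕ) (G : Fin n → Fin n → Bool), P (natCode k ++ adjMatrixCode G) = (k, n, bitsOf G) := by
    intro k n G
    simp only [P, adjMatrixCode_eq, parseNat_natCode]
  clear_value P
  refine inEXP_of_pad (g := fun p => ((P p.2).2.2.length = (P p.2).2.1 * (P p.2).2.1 ∧
    p.2 = natCode (P p.2).1 ++ (natCode (P p.2).2.1 ++ (P p.2).2.2)) ∧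
    q (p.1, P p.2)) (PT.and (by fun_prop) (hq.comp (by fun_prop))) 2 fun x K hK => ⟨?_, fun hx => ?_⟩
  · rintro ⟨⟨a1, a3⟩, a4⟩
    simp only at a1 a3 a4
    generalize P x = y at a1 a3 a4
    obtain ⟨k, n, l⟩ := y
    simp only at a1 a3
    have := (h2 _ _ _).2 ((h3 K k n l (em_pad (by rw [a3, ← a1]; simp; omega) hK)).1 a4)
    rwa [adjMatrixCode_eq, bitsOf_mat_bm a1, ← a3] at this
  · obtain ⟨k, n, G, rfl⟩ := h1 x hx
    simp only [hP2]
    refine ⟨⟨length_bitsOf G, rfl⟩, (h3 K k n _ (em_pad ?_ hK)).2 ?_⟩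
    · simp [adjMatrixCode_eq, length_bitsOf]; omega
    · rw [mat_bm_bitsOf]
      exact (h2 _ _ _).1 hx

end Crest.Agent.R290
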