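import Crest.Agent.R290.HDefs

/-!
# Row 290: flat stack machines and their Horn-shift systems (definitions)

An instruction `(k, tab)` reads the top code `τ` of stack `k` (`0` if empty, `a + 1` for the symbol
`a`), looks up `(act, next) = tab[τ]` and keeps the stack (`act = 0`), pops (`act = 1`) or pushes
`act - 2`.  The machine is halted when `pc ≥ length`; it accepts iff then `pc = length`.
-/

set_option autoImplicit false

namespace Crest.Agent.R290

abbrev FCode : Type := List (ℕ × List (ℕ × ℕ))
abbrev FCfg : Type := ℕ × List (List ℕ)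

/-- code of the top of a stack -/
def topc : List ℕ → ℕ
  | [] => 0
  | a :: _ => a + 1

/-- action on a stack -/
def act (a : ℕ) (l : List ℕ) : List ℕ := if a = 0 then l else if a = 1 then l.tail else (a - 2) :: l

/-- the stack read by instruction `pc` -/
def fstk (code : FCode) (pc : ℕ) : ℕ := (code.getD pc (0, [])).1

/-- the table entry of instruction `pc` for the top code `τ` -/
def fent (code : FCode) (pc τ : ℕ) : ℕ × ℕ := (code.getD pc (0, [])).2.getD τ (0, code.length + 1)

/-- one step -/
def fstep (code : FCode) (c : FCfg) : FCfg :=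
  if c.1 < code.length then
    (min (fent code c.1 (topc (c.2.getD (fstk code c.1) []))).2 (code.length + 1),
      c.2.set (fstk code c.1)
        (act (fent code c.1 (topc (c.2.getD (fstk code c.1) []))).1 (c.2.getD (fstk code c.1) [])))
  else c

/-- initial configuration with `D` stacks, the input on stack `0` -/
def finit (D : ℕ) (x : List Bool) : FCfg := (0, x.map Bool.toNat :: List.replicate (D - 1) [])

/-- configuration after `t` steps -/
def frun (code : FCode) (D : ℕ) (x : List Bool) (t : ℕ) : FCfg := (fstep code)^[t] (finit D x)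

/-- stacks and symbols are below `D` -/
def FWF (code : FCode) (D : ℕ) : Prop :=
  2 ≤ D ∧ ∀ ins ∈ code, ins.1 < D ∧ ∀ an ∈ ins.2, an.1 < D + 2

theorem fstep_halted {code : FCode} {c : FCfg} (h : code.length ≤ c.1) : fstep code c = c := by
  simp [fstep, Nat.not_lt.2 h]

theorem frun_halted {code : FCode} {D : ℕ} {x : List Bool} {t t' : ℕ}
    (h : code.length ≤ (frun code D x t).1) (ht : t ≤ t') : frun code D x t' = frun code D x t := by
  obtain ⟨d, rfl⟩ := Nat.exists_eq_add_of_le ht
  unfold frun at *
  rw [add_comm, Function.iterate_add_apply]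
  exact Function.iterate_fixed (fstep_halted h) d

/-! ## The Horn-shift system; time `t`, depth `i` has the address `t * W + i` -/

def sQ0 : Sg := (0, 0, 0)
def sBack : Sg := (1, 0, 0)
def sState (pc : ℕ) : Sg := (2, pc, 0)
def sCtrl (pc τ : ℕ) : Sg := (3, pc, τ)
def sCell (k a : ℕ) : Sg := (4, k, a)
def sAct (k ty : ℕ) : Sg := (5, k, ty)

/-- what happens to stack `k`: `0` keep, `1` pop (nonempty), `2` push -/
def fty (code : FCode) (pc τ k : ℕ) : ℕ :=
  if k ≠ fstk code pc ∨ (fent code pc τ).1 = 0 then 0
  else if (fent code pc τ).1 = 1 then (if τ = 0 then 0 else 1) else 2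

/-- a rule with one premise -/
def rule1 (out q : Sg) (σ : ℤ) : Rule := ⟨out, q, σ, q, σ⟩

/-- rules for the initial configuration -/
def rulesInit (D : ℕ) (x : List Bool) : List Rule :=
  rule1 (sState 0) sQ0 0 :: rule1 (sCell 0 0) sQ0 (-(x.length : ℤ)) ::
    (((List.range x.length).map fun i =>
        rule1 (sCell 0 ((x.getD i false).toNat + 1)) sQ0 (-(i : ℤ))) ++
      (List.range (D - 1)).map fun k => rule1 (sCell (k + 1) 0) sQ0 0)

/-- rules for the control -/
def rulesCtrl (code : FCode) (D W : ℕ) : List Rule :=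
  (List.range code.length).flatMap fun pc => (List.range (D + 1)).flatMap fun τ =>
    (⟨sCtrl pc τ, sState pc, 0, sCell (fstk code pc) τ, 0⟩ : Rule) ::
    rule1 (sState (min (fent code pc τ).2 (code.length + 1))) (sCtrl pc τ) (-(W : ℤ)) ::
    (((List.range D).map fun k => rule1 (sAct k (fty code pc τ k)) (sCtrl pc τ) 0) ++
      if 2 ≤ (fent code pc τ).1 then
        [rule1 (sCell (fstk code pc) ((fent code pc τ).1 - 1)) (sCtrl pc τ) (-(W : ℤ))] else [])

/-- rules for the stacks -/
def rulesStk (D W : ℕ) : List Rule :=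
  (List.range D).flatMap fun k => (List.range (D + 1)).flatMap fun a =>
    [⟨sAct k 0, sAct k 0, -1, sCell k a, 0⟩, ⟨sAct k 1, sAct k 1, -1, sCell k a, 0⟩,
     ⟨sAct k 2, sAct k 2, -1, sCell k a, 0⟩,
     ⟨sCell k a, sAct k 0, -(W : ℤ), sCell k a, -(W : ℤ)⟩,
     ⟨sCell k a, sAct k 1, -(W : ℤ), sCell k a, -(W : ℤ) + 1⟩,
     ⟨sCell k a, sAct k 2, -(W : ℤ) - 1, sCell k a, -(W : ℤ) - 1⟩]

/-- rules carrying acceptance back to address `0` -/
def rulesBack (code : FCode) (W : ℕ) : List Rule :=
  rule1 sBack (sState code.length) 0 ::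
    (List.range code.length).map fun pc => ⟨sBack, sBack, (W : ℤ), sState pc, 0⟩

/-- the Horn-shift system of the run of `code` on `x` -/
def fhorn (code : FCode) (D : ℕ) (x : List Bool) (W : ℕ) : Horn :=
  ⟨rulesInit D x ++ rulesCtrl code D W ++ rulesStk D W ++ rulesBack code W, sQ0, sBack⟩

/-- the first `s` primes `≥ m` -/
def prs (m s : ℕ) : List ℕ :=
  ((List.range (2 * (m + s + 2) ^ 2 + 1)).filter fun p => decide (m ≤ p ∧ p.Prime)).take s

end Crest.Agent.R290
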