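import Crest.Agent.R290.XDefs

/-!
# Row 290, layer X: from Horn-shift systems to 3-XOR systems (definitions)

A Horn-shift system derives facts `(q, c)` (signal `q`, address `c : ℤ`).  The XOR system has `s`
registers with moduli `p j`; the *virtual* value of the signal `q`, coordinate `l < r`, at address `c`
is `∑ j < s, x q l j (c mod p j)`.
-/

set_option autoImplicit false

namespace Crest.Agent.R290

open Finset

/-- signals -/
abbrev Sg : Type := ℕ × ℕ × ℕ

/-- `out c ← in1 (c + sh1), in2 (c + sh2)` -/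
structure Rule where
  out : Sg
  in1 : Sg
  sh1 : ℤ
  in2 : Sg
  sh2 : ℤ
  deriving DecidableEq, Inhabited

/-- rules, initial signal (true at address `0`) and target signal (asked at address `0`) -/
structure Horn where
  rules : List Rule
  q0 : Sg
  qf : Sg

/-- derivable facts -/
inductive Der (H : Horn) : Sg → ℤ → Prop
  | init : Der H H.q0 0
  | rule {r : Rule} {c : ℤ} : r ∈ H.rules → Der H r.in1 (c + r.sh1) → Der H r.in2 (c + r.sh2) →
      Der H r.out c

/-- all derivable addresses and all shifts are bounded by `B` -/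
def Bnd (H : Horn) (B : ℕ) : Prop :=
  (∀ q c, Der H q c → |c| ≤ B) ∧ ∀ r ∈ H.rules, |r.sh1| ≤ B ∧ |r.sh2| ≤ B

/-- a nonzero integer of size `≤ D` is divisible by at most `e` of the moduli -/
def Sep (ps : List ℕ) (e D : ℕ) : Prop :=
  ∀ d : ℤ, d ≠ 0 → |d| ≤ D → ((range ps.length).filter fun j => (ps.getD j 1 : ℤ) ∣ d).card ≤ e

/-- the input of layer X -/
structure XIn where
  H : Horn
  ps : List ℕ

/-- families of chains (each family has one robber block) -/
inductive Fam
  | rule (i : ℕ) (part : Bool) (l : ℕ)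
  | reset (qi l j ρ : ℕ)
  deriving DecidableEq

/-- variables -/
inductive XV
  | zeta
  | x (q : Sg) (l j ρ : ℕ)
  | mu (i l j ρ : ℕ)
  | e (a : Fam) (pos j ρ : ℕ)
  | y0 (l j : ℕ)
  | yf (l j : ℕ)
  deriving DecidableEq

namespace XIn

variable (X : XIn)

/-- number of registers -/
def s : ℕ := X.ps.length
/-- modulus of register `j` -/
def p (j : ℕ) : ℕ := X.ps.getD j 1
/-- residue of address `c` in register `j` -/
def res (j : ℕ) (c : ℤ) : ℕ := (c % (X.p j : ℤ)).toNat
/-- rule number `i` -/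
def rl (i : ℕ) : Rule := X.H.rules.getD i default
/-- number of rules -/
def R : ℕ := X.H.rules.length
/-- all signals (with repetitions) -/
def sigs : List Sg := X.H.q0 :: X.H.qf :: X.H.rules.flatMap fun r => [r.out, r.in1, r.in2]
/-- signal number `i` -/
def sg (i : ℕ) : Sg := X.sigs.getD i (0, 0, 0)
/-- Duplicator's width -/
def w : ℕ := 7 * X.s
/-- number of blocks of a chain -/
def N : ℕ := X.w + 1
/-- number of groups of coordinates -/
def G : ℕ := 2 * X.w + 1
/-- bound for the moduli -/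
def P : ℕ := X.ps.sum
/-- number of families per coordinate -/
def F : ℕ := 2 * X.R + X.sigs.length * X.s * X.P
/-- side of the grid of checkpoint indices -/
def om : ℕ := X.N * X.G * (X.w + 1) ^ 2 * X.F
/-- number of intercepts -/
def Y : ℕ := (X.w + 1) * X.om
/-- size of a group of coordinates -/
def n' : ℕ := (X.w + 1) * X.Y
/-- number of coordinates -/
def r : ℕ := X.G * X.n'

/-- checkpoint vector of the index `u = (u / om, u % om)`: coordinate `l` has slope
`(l % n') / Y` and intercept `(l % n') % Y` -/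
def cpv (u l : ℕ) : ZMod 2 :=
  if (l % X.n') % X.Y = u / X.om + ((l % X.n') / X.Y) * (u % X.om) then 1 else 0

/-- numbering of the families -/
def num : Fam → ℕ
  | .rule i part l => l + X.r * (2 * i + part.toNat)
  | .reset qi l j ρ => l + X.r * (2 * X.R + ((qi * X.s + j) * X.P + ρ))

/-- checkpoint `t` of family `a` -/
def cp (a : Fam) (t l : ℕ) : ZMod 2 := if t = 0 ∨ X.N ≤ t then 0 else X.cpv (X.num a * X.N + t) l

/-- start of the real chain `(a, j, ρ)` -/
def src : Fam → ℕ → ℕ → XV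
  | .rule i true l, j, ρ => .mu i l j ρ
  | _, _, _ => .zeta

/-- end of the real chain `(a, j, ρ)` -/
def dst : Fam → ℕ → ℕ → XV
  | .rule i false l, j, ρ => .mu i l j ρ
  | .rule i true l, j, ρ => .x (X.rl i).out l j ρ
  | .reset qi l _ _, j, ρ => .x (X.sg qi) l j ρ

/-- guard variable, coordinate `l'`, of the real chain `(a, j, ρ)` -/
def grd : Fam → ℕ → ℕ → ℕ → XV
  | .rule i false _, l', j, ρ => .x (X.rl i).in1 l' j (X.res j (ρ + (X.rl i).sh1))
  | .rule i true _, l', j, ρ => .x (X.rl i).in2 l' j (X.res j (ρ + (X.rl i).sh2))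
  | .reset _ _ _ _, l', _, _ => .yf l' X.s

/-- the variable at position `pos ≤ N * r` of the real chain -/
def ev (a : Fam) (pos j ρ : ℕ) : XV :=
  if pos = 0 then src a j ρ else if pos = X.N * X.r then X.dst a j ρ else .e a pos j ρ

/-- the variable added in step `pos → pos + 1` -/
def gv (a : Fam) (pos j ρ : ℕ) : XV :=
  if X.cp a (pos / X.r) (pos % X.r) = X.cp a (pos / X.r + 1) (pos % X.r) then .zeta
  else X.grd a (pos % X.r) j ρ

/-- all pairs (register, residue) -/
def regs : List (ℕ × ℕ) := (List.range X.s).flatMap fun j => (List.range (X.p j)).map fun ρ => (j, ρ)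

/-- all real chains -/
def chains : List (Fam × ℕ × ℕ) :=
  ((List.range X.R).flatMap fun i => (List.range X.r).flatMap fun l => X.regs.flatMap fun g =>
    [(Fam.rule i false l, g.1, g.2), (Fam.rule i true l, g.1, g.2)]) ++
  ((List.range X.sigs.length).flatMap fun qi => (List.range X.r).flatMap fun l =>
    X.regs.map fun g => (Fam.reset qi l g.1 g.2, g.1, g.2))

/-- partial sums for the initial signal -/
def y0v (l j : ℕ) : XV := if j = 0 ∨ j = X.s then .zeta else .y0 l j
/-- partial sums for the target signal; `yf l s` is `Ω l` -/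
def yfv (l j : ℕ) : XV := if j = 0 then .zeta else .yf l j

/-- all constraints but the first -/
def rest : List (XV × XV × XV) :=
  (XV.zeta, XV.zeta, XV.zeta) ::
  (((List.range X.r).flatMap fun l => (List.range X.s).flatMap fun j =>
      [(X.y0v l j, XV.x X.H.q0 l j 0, X.y0v l (j + 1)),
       (yfv l j, XV.x X.H.qf l j 0, yfv l (j + 1))]) ++
    X.chains.flatMap fun ch => (List.range (X.N * X.r)).map fun pos =>
      (X.ev ch.1 pos ch.2.1 ch.2.2, X.gv ch.1 pos ch.2.1 ch.2.2, X.ev ch.1 (pos + 1) ch.2.1 ch.2.2))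

/-- the XOR system; the first constraint is `Ω 0 + ζ + ζ = b` -/
def cons : List (XV × XV × XV) := (XV.yf 0 X.s, XV.zeta, XV.zeta) :: X.rest

/-- standing hypothesis -/
def Ok : Prop := 0 < X.s ∧ ∀ j, 0 < X.p j

theorem mem_regs (j ρ : ℕ) : (j, ρ) ∈ X.regs ↔ j < X.s ∧ ρ < X.p j := by
  simp [regs]

theorem mem_chains_rule (i : ℕ) (part : Bool) (l j ρ : ℕ) :
    (Fam.rule i part l, j, ρ) ∈ X.chains ↔ i < X.R ∧ l < X.r ∧ j < X.s ∧ ρ < X.p j := by
  rw [← X.mem_regs]
  cases part <;> simp [chains]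

theorem mem_chains_reset (qi l j₀ ρ₀ j ρ : ℕ) :
    (Fam.reset qi l j₀ ρ₀, j, ρ) ∈ X.chains ↔
      qi < X.sigs.length ∧ l < X.r ∧ j < X.s ∧ ρ < X.p j ∧ j₀ = j ∧ ρ₀ = ρ := by
  simp only [chains, List.mem_append, List.mem_flatMap, List.mem_range, List.mem_cons,
    Prod.mk.injEq, reduceCtorEq, false_and, List.not_mem_nil, or_self, and_false, exists_const,
    List.mem_map, Fam.reset.injEq, false_or, Prod.exists, mem_regs]
  constructor
  · rintro ⟨a, h1, b, h2, c, d, ⟨h3, h4⟩, ⟨rfl, rfl, rfl, rfl⟩, rfl, rfl⟩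
    exact ⟨h1, h2, h3, h4, rfl, rfl⟩
  · rintro ⟨h1, h2, h3, h4, rfl, rfl⟩
    exact ⟨_, h1, _, h2, _, _, ⟨h3, h4⟩, ⟨rfl, rfl, rfl, rfl⟩, rfl, rfl⟩

theorem mem_rest (c : XV × XV × XV) : c ∈ X.rest ↔ c = (XV.zeta, XV.zeta, XV.zeta) ∨
    (∃ l < X.r, ∃ j < X.s, c = (X.y0v l j, XV.x X.H.q0 l j 0, X.y0v l (j + 1))) ∨
    (∃ l < X.r, ∃ j < X.s, c = (yfv l j, XV.x X.H.qf l j 0, yfv l (j + 1))) ∨
    ∃ a j ρ, (a, j, ρ) ∈ X.chains ∧ ∃ pos < X.N * X.r,
      c = (X.ev a pos j ρ, X.gv a pos j ρ, X.ev a (pos + 1) j ρ) := by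
  simp only [rest, List.mem_cons, List.mem_append, List.mem_flatMap, List.mem_range,
    List.not_mem_nil, or_false, List.mem_map, Prod.exists]
  constructor
  · rintro (h | ⟨l, hl, j, hj, h | h⟩ | ⟨a, j, ρ, h, pos, hp, rfl⟩)
    · exact .inl h
    · exact .inr (.inl ⟨l, hl, j, hj, h⟩)
    · exact .inr (.inr (.inl ⟨l, hl, j, hj, h⟩))
    · exact .inr (.inr (.inr ⟨a, j, ρ, h, pos, hp, rfl⟩))
  · rintro (h | ⟨l, hl, j, hj, h⟩ | ⟨l, hl, j, hj, h⟩ | ⟨a, j, ρ, h, pos, hp, rfl⟩)
    · exact .inl h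
    · exact .inr (.inl ⟨l, hl, j, hj, .inl h⟩)
    · exact .inr (.inl ⟨l, hl, j, hj, .inr h⟩)
    · exact .inr (.inr ⟨a, j, ρ, h, pos, hp, rfl⟩)

variable {X}

theorem Ok.res_lt (h : X.Ok) (j : ℕ) (c : ℤ) : X.res j c < X.p j := by
  have h1 : (0 : ℤ) < X.p j := by exact_mod_cast h.2 j
  have h2 := Int.emod_lt_of_pos c h1
  have h3 := Int.emod_nonneg c h1.ne'
  unfold res; omega

theorem Ok.res_cast (h : X.Ok) (j : ℕ) (c : ℤ) : (X.res j c : ℤ) = c % (X.p j : ℤ) := by
  have h1 : (0 : ℤ) < X.p j := by exact_mod_cast h.2 j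
  exact Int.toNat_of_nonneg (Int.emod_nonneg c h1.ne')

theorem Ok.res_res_add (h : X.Ok) (j : ℕ) (c d : ℤ) : X.res j (X.res j c + d) = X.res j (c + d) := by
  rw [h.res_cast]; unfold res; rw [Int.emod_add_emod]

theorem res_nat {j ρ : ℕ} (h : ρ < X.p j) : X.res j ρ = ρ := by
  unfold res; rw [Int.emod_eq_of_lt (by omega) (by omega)]; simp

theorem res_zero (j : ℕ) : X.res j 0 = 0 := by simp [res]

theorem Ok.res_eq_iff (h : X.Ok) (j : ℕ) (c d : ℤ) :
    X.res j c = X.res j d ↔ (X.p j : ℤ) ∣ c - d := by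
  rw [← Int.natCast_inj, h.res_cast, h.res_cast, Int.emod_eq_emod_iff_emod_sub_eq_zero,
    Int.dvd_iff_emod_eq_zero]

theorem Ok.F_pos (h : X.Ok) : 0 < X.F := by
  have h1 : X.p 0 ≤ X.P := by
    have hs : 0 < X.ps.length := h.1
    unfold p P
    rw [List.getD_eq_getElem _ _ hs]
    exact List.single_le_sum (by simp) _ (List.getElem_mem hs)
  have h2 := h.2 0
  have h3 : 0 < X.sigs.length := by simp [sigs]
  have h4 := h.1
  have : 0 < X.sigs.length * X.s * X.P := by have : 0 < X.P := by omega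
                                             positivity
  unfold F; omega

theorem Ok.om_pos (h : X.Ok) : 0 < X.om := by
  have := h.F_pos
  unfold om N G; positivity

theorem Ok.Y_pos (h : X.Ok) : 0 < X.Y := by
  have := h.om_pos
  unfold Y; positivity

theorem Ok.n'_pos (h : X.Ok) : 0 < X.n' := by
  have := h.Y_pos
  unfold n'; positivity

theorem Ok.two_le_r (h : X.Ok) : 2 ≤ X.r := by
  have h1 := h.n'_pos
  have h2 : 2 ≤ X.G := by have := h.1; unfold G w; omega
  unfold r; nlinarith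

end XIn

/-- realises the unfolding lemmas once, here (so importers do not generate them separately) -/
theorem src_eqs_realised : True := by
  have _h0 := @Crest.Agent.R290.XIn.src.eq_2
  trivial

end Crest.Agent.R290
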