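import Crest.Agent.R290.PTDefs

/-!
# Row 290, task PTHorn: the Horn-shift system, the primes and the machine step are polynomial time

Plan: unfold and `fun_prop` (see `Crest/Agent/R301/PT.lean` for the style); `D`, `m`, `s` need `PB`
bounds, `W` is binary.  Primality: `p.Prime ↔ 2 ≤ p ∧ ∀ d < p, d ∣ p → d = 1`
(`Nat.prime_def_lt`), `PT.forall_lt`.
-/

set_option autoImplicit false

namespace Crest.Agent.R290

open Crest.Agent.PTime

variable {α : Type} [Enc α]

@[fun_prop] theorem pth_topc {l : α → List ℕ} (h : PT l) : PT (fun a => topc (l a)) := by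
  have h1 : PT (fun a => cond (l a).isEmpty 0 ((l a).headD 0 + 1)) := by fun_prop
  exact h1.congr fun a => by cases l a <;> rfl

@[fun_prop] theorem pth_act {n : α → ℕ} {l : α → List ℕ} (h1 : PT n) (h : PT l) :
    PT (fun a => act (n a) (l a)) := by
  unfold act; fun_prop

@[fun_prop] theorem pth_fstk {code : α → FCode} {pc : α → ℕ} (h1 : PT code) (h2 : PT pc) :
    PT (fun a => fstk (code a) (pc a)) := by
  unfold fstk; fun_prop

@[fun_prop] theorem pth_fent {code : α → FCode} {pc t : α → ℕ} (h1 : PT code) (h2 : PT pc)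
    (h3 : PT t) : PT (fun a => fent (code a) (pc a) (t a)) := by
  unfold fent; fun_prop

@[fun_prop] theorem PT.fstep {code : α → FCode} {c : α → FCfg} (h1 : PT code) (h2 : PT c) :
    PT (fun a => fstep (code a) (c a)) := by
  unfold Crest.Agent.R290.fstep; fun_prop

@[fun_prop] theorem PT.finit {D : α → ℕ} {x : α → List Bool} (h1 : PT D) (h2 : PB D) (h3 : PT x) :
    PT (fun a => finit (D a) (x a)) := by
  unfold Crest.Agent.R290.finit; fun_prop

theorem pth_sz_set {β : Type} [Enc β] (f : β → β) (d : β) (e : ℕ) (hf : ∀ x, sz (f x) ≤ sz x + e) :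
    ∀ (l : List β) (k : ℕ), sz (l.set k (f (l.getD k d))) ≤ sz l + e
  | [], _ => by simp
  | x :: l, 0 => by have := hf x; simp; omega
  | x :: l, k + 1 => by have := pth_sz_set f d e hf l k; simp at this ⊢; omega

theorem pth_sz_getD {β : Type} [Enc β] (l : List β) (k : ℕ) (d : β) :
    l.getD k d = d ∨ sz (l.getD k d) < sz l := by
  by_cases h : k < l.length
  · rw [List.getD_eq_getElem _ _ h]; exact .inr (sz_mem (List.getElem_mem h))
  · exact .inl (List.getD_eq_default _ _ (not_lt.1 h))

theorem pth_sz_fent (code : FCode) (pc t : ℕ) : sz (fent code pc t).1 ≤ sz code := by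
  have h0 : sz (0 : ℕ) = 1 := rfl
  have := sz_pos code
  unfold fent
  rcases pth_sz_getD (code.getD pc (0, [])).2 t (0, code.length + 1) with h | h
  · rw [h]; dsimp only; omega
  · rcases pth_sz_getD code pc (0, []) with h' | h'
    · rw [h'] at h ⊢; simp; omega
    · rw [sz_prod] at h h'; omega

theorem pth_sz_act (a : ℕ) (l : List ℕ) : sz (act a l) ≤ sz l + (4 * sz a + 2) := by
  unfold act
  split_ifs
  · omega
  · have := sz_sublist (List.tail_sublist l); omega
  · have := sz_le_of_le (Nat.sub_le a 2); simp; omega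

theorem sz_fstep (code : FCode) (c : FCfg) : sz (fstep code c) ≤ sz c + 8 * sz code + 20 := by
  unfold fstep
  split_ifs
  · rw [sz_pair, sz_prod c]
    generalize topc (c.2.getD (fstk code c.1) []) = t
    have h1 := pth_sz_set _ [] _ (pth_sz_act (fent code c.1 t).1) c.2 (fstk code c.1)
    have h2 := pth_sz_fent code c.1 t
    have h3 := sz_le_self (min (fent code c.1 t).2 (code.length + 1))
    have h4 := length_le_sz code
    have h5 := min_le_right (fent code c.1 t).2 (code.length + 1)
    omega
  · omega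

@[fun_prop] theorem pth_sState {n : α → ℕ} (h : PT n) : PT (fun a => sState (n a)) := by
  unfold sState; fun_prop

@[fun_prop] theorem pth_sCtrl {m n : α → ℕ} (h1 : PT m) (h : PT n) :
    PT (fun a => sCtrl (m a) (n a)) := by
  unfold sCtrl; fun_prop

@[fun_prop] theorem pth_sCell {m n : α → ℕ} (h1 : PT m) (h : PT n) :
    PT (fun a => sCell (m a) (n a)) := by
  unfold sCell; fun_prop

@[fun_prop] theorem pth_sAct {m n : α → ℕ} (h1 : PT m) (h : PT n) :
    PT (fun a => sAct (m a) (n a)) := by
  unfold sAct; fun_prop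

@[fun_prop] theorem pth_fty {code : α → FCode} {pc t k : α → ℕ} (h1 : PT code) (h2 : PT pc)
    (h3 : PT t) (h4 : PT k) : PT (fun a => fty (code a) (pc a) (t a) (k a)) := by
  unfold fty; fun_prop

@[fun_prop] theorem pth_rule1 {o q : α → Sg} {s : α → ℤ} (h1 : PT o) (h2 : PT q) (h3 : PT s) :
    PT (fun a => rule1 (o a) (q a) (s a)) := by
  unfold rule1; fun_prop

@[fun_prop] theorem pth_rulesInit {D : α → ℕ} {x : α → List Bool} (h2 : PT D) (h3 : PB D)
    (h4 : PT x) : PT (fun a => rulesInit (D a) (x a)) := by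
  unfold rulesInit; fun_prop

@[fun_prop] theorem pth_rulesCtrl {code : α → FCode} {D W : α → ℕ} (h1 : PT code)
    (h2 : PT D) (h3 : PB D) (h5 : PT W) : PT (fun a => rulesCtrl (code a) (D a) (W a)) := by
  unfold rulesCtrl; fun_prop

@[fun_prop] theorem pth_rulesStk {D W : α → ℕ} (h2 : PT D) (h3 : PB D) (h5 : PT W) :
    PT (fun a => rulesStk (D a) (W a)) := by
  unfold rulesStk; fun_prop

@[fun_prop] theorem pth_rulesBack {code : α → FCode} {W : α → ℕ} (h1 : PT code) (h5 : PT W) :
    PT (fun a => rulesBack (code a) (W a)) := by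
  unfold rulesBack; fun_prop

@[fun_prop] theorem PT.fhorn {code : α → FCode} {D W : α → ℕ} {x : α → List Bool} (h1 : PT code)
    (h2 : PT D) (h3 : PB D) (h4 : PT x) (h5 : PT W) :
    PT (fun a => fhorn (code a) (D a) (x a) (W a)) := by
  unfold Crest.Agent.R290.fhorn; fun_prop

theorem pth_prime {p : α → ℕ} (h1 : PT p) (h2 : PB p) : PT (fun a => (p a).Prime) := by
  have h3 : PT (fun a => 2 ≤ p a ∧ ∀ d < p a, d ∣ p a → d = 1) :=
    PT.and (by fun_prop) (PT.forall_lt h1 h2 (PT.imp (by fun_prop) (by fun_prop)))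
  exact h3.congr_prop fun a => Nat.prime_def_lt

@[fun_prop] theorem PT.prs {m s : α → ℕ} (h1 : PT m) (h2 : PB m) (h3 : PT s) (h4 : PB s) :
    PT (fun a => prs (m a) (s a)) := by
  have h5 : PT (fun x : α × U => x.2.val.Prime) := pth_prime (by fun_prop) (by fun_prop)
  have h6 : PT (fun a => (List.range (2 * (m a + s a + 2) ^ 2 + 1)).flatMap fun p =>
      if m a ≤ p ∧ p.Prime then [p] else []) :=
    PT.flatMap_range (by fun_prop) (by fun_prop)
      (PT.ite (PT.and (by fun_prop) h5) (by fun_prop) (by fun_prop))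
  refine (PT.take h3 h6).congr fun a => ?_
  unfold Crest.Agent.R290.prs
  congr 1
  generalize List.range _ = l
  induction l with
  | nil => rfl
  | cons p l ih => rw [List.flatMap_cons, List.filter_cons, ih]; split_ifs <;> simp_all

end Crest.Agent.R290
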