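import Crest.Agent.R290.FM

/-!
# Row 290, task Primes

Plan.  With `u = m + s + 2`, `n = u ^ 2`: `4 ^ n ≤ 2 n * centralBinom n`
(`Nat.four_pow_le_two_mul_self_mul_centralBinom`) and
`centralBinom n = ∏ p ^ v_p ≤ (2 n) ^ π(2n)` (`Nat.factorization_choose_le_log`,
`Nat.pow_factorization_choose_le`, `Nat.prod_pow_factorization_centralBinom`), so if there were fewer
than `u` primes `≤ 2 n` we would get `4 ^ (u ^ 2) ≤ (2 u ^ 2) ^ u`, i.e. `4 ^ u ≤ 2 u ^ 2`, false.  At most
`m` primes are `< m`.  `prs_sep`: the entries are distinct primes `≥ m`; if `e + 1` of them divide `d`,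
their product `≥ m ^ (e + 1)` divides `d` (`Finset.prod_primes_dvd`).
-/

set_option autoImplicit false

namespace Crest.Agent.R290

theorem prs_many (v : ℕ) : v + 1 ≤ ((Finset.range (2 * (v + 1) ^ 2 + 1)).filter Nat.Prime).card := by
  by_contra hc
  have hn : 0 < (v + 1) ^ 2 := by positivity
  have h1 := Nat.four_pow_le_two_mul_self_mul_centralBinom _ hn
  rw [← Nat.prod_pow_factorization_centralBinom, ← Finset.prod_filter_of_ne (p := Nat.Prime)
    fun p _ h => by_contra fun hp => h (by simp [Nat.factorization_eq_zero_of_not_prime _ hp])] at h1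
  have h2 := h1.trans (Nat.mul_le_mul_left _ (Finset.prod_le_pow_card _ _ (2 * (v + 1) ^ 2)
    fun p _ => Nat.pow_factorization_choose_le (by omega)))
  rw [← pow_succ'] at h2
  have h3 := h2.trans (Nat.pow_le_pow_right (by omega) (Nat.succ_le_of_lt (not_le.1 hc)))
  rw [sq, pow_mul, Nat.pow_le_pow_iff_left (by omega), pow_succ, show 4 = 2 * 2 from rfl, mul_pow] at h3
  nlinarith [Nat.lt_two_pow_self (n := v)]

theorem prs_mem {m s p : ℕ} (h : p ∈ prs m s) : p ≤ 2 * (m + s + 2) ^ 2 ∧ m ≤ p ∧ p.Prime := by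
  simpa [Nat.lt_succ_iff] using List.mem_of_mem_take h

theorem prs_length (m s : ℕ) : (prs m s).length = s := by
  rw [prs, List.length_take, min_eq_left]
  have h1 := prs_many (m + s + 1)
  have h2 : (Finset.range (2 * (m + s + 2) ^ 2 + 1)).filter Nat.Prime ⊆ Finset.range m ∪
      ((List.range (2 * (m + s + 2) ^ 2 + 1)).filter fun p => decide (m ≤ p ∧ p.Prime)).toFinset :=
    fun p hp => by
      simp only [Finset.mem_filter, Finset.mem_range] at hp
      by_cases h : p < m <;> simp [h, hp.2, Nat.lt_succ_iff.1 hp.1, not_lt.1]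
  have h3 := (Finset.card_le_card h2).trans ((Finset.card_union_le _ _).trans
    (Nat.add_le_add (Finset.card_range m).le (List.toFinset_card_le _)))
  have := h1.trans h3
  omega

theorem prs_pos (m s j : ℕ) : 0 < (prs m s).getD j 1 := by
  by_cases h : j < (prs m s).length
  · rw [List.getD_eq_getElem _ _ h]; exact (prs_mem (List.getElem_mem h)).2.2.pos
  · rw [List.getD_eq_default _ _ (not_lt.1 h)]; exact one_pos

theorem prs_sep {m s e D : ℕ} (hD : D < m ^ (e + 1)) : Sep (prs m s) e D := by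
  intro d hd hdD
  by_contra hc
  set J := (Finset.range (prs m s).length).filter fun j => (((prs m s).getD j 1 : ℕ) : ℤ) ∣ d
  have h1 : ∀ j ∈ J, j < (prs m s).length := fun j hj => Finset.mem_range.1 (Finset.mem_filter.1 hj).1
  have h2 : Set.InjOn (fun j => (prs m s).getD j 1) J := fun i hi j hj e => by
    simp only [List.getD_eq_getElem _ _ (h1 i hi), List.getD_eq_getElem _ _ (h1 j hj)] at e
    exact (List.Nodup.getElem_inj_iff ((List.nodup_range.filter _).sublist (List.take_sublist _ _))).1 e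
  have h3 : ∀ p ∈ J.image fun j => (prs m s).getD j 1, p ∈ prs m s ∧ p ∣ d.natAbs := fun p hp => by
    obtain ⟨j, hj, rfl⟩ := Finset.mem_image.1 hp
    refine ⟨?_, Int.natCast_dvd.1 (Finset.mem_filter.1 hj).2⟩
    rw [List.getD_eq_getElem _ _ (h1 j hj)]; exact List.getElem_mem _
  have h4 := Nat.le_of_dvd (Int.natAbs_pos.2 hd) (Finset.prod_primes_dvd _
    (fun p hp => (prs_mem (h3 p hp).1).2.2.prime) fun p hp => (h3 p hp).2)
  have h5 := Finset.pow_card_le_prod _ (fun p => p) m fun p hp => (prs_mem (h3 p hp).1).2.1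
  rw [Finset.card_image_of_injOn h2] at h5
  have h6 : d.natAbs ≤ D := by rw [← Int.natCast_natAbs] at hdD; exact_mod_cast hdD
  have h7 : 0 < m := Nat.pos_of_ne_zero fun h => by simp [h] at hD
  have := Nat.pow_le_pow_right h7 (Nat.succ_le_of_lt (not_le.1 hc))
  exact (hD.trans_le (this.trans (h5.trans h4))).not_ge h6

theorem prs_sum_le (m s : ℕ) : (prs m s).sum ≤ s * (2 * (m + s + 2) ^ 2) := by
  simpa [prs_length] using List.sum_le_card_nsmul _ _ fun p (hp : p ∈ prs m s) => (prs_mem hp).1

end Crest.Agent.R290
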