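import Mathlib

/-!
# Row 290, 3-XOR systems and local consistency (definitions)

A system is a list `cs` of triples of variables; the constraint number `κ` says that the three
values add up to `rhs b κ` (`b` for the first constraint, `0` for all others).
-/

set_option autoImplicit false

namespace Crest.Agent.R290

variable {α : Type}

/-- the variable occurs in the system -/
def Occ (cs : List (α × α × α)) (v : α) : Prop := ∃ c ∈ cs, v = c.1 ∨ v = c.2.1 ∨ v = c.2.2

/-- right-hand side of constraint number `κ` -/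
def rhs (b : ZMod 2) (κ : ℕ) : ZMod 2 := if κ = 0 then b else 0

/-- `Y` satisfies the constraints all of whose variables lie in `Z` -/
def Sat (cs : List (α × α × α)) (b : ZMod 2) (Z : Finset α) (Y : α → ZMod 2) : Prop :=
  ∀ (κ : ℕ) (h : κ < cs.length), cs[κ].1 ∈ Z → cs[κ].2.1 ∈ Z → cs[κ].2.2 ∈ Z →
    Y cs[κ].1 + Y cs[κ].2.1 + Y cs[κ].2.2 = rhs b κ

/-- a global solution exists -/
def Solvable (cs : List (α × α × α)) (b : ZMod 2) : Prop :=
  ∃ Y : α → ZMod 2, ∀ (κ : ℕ) (h : κ < cs.length),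
    Y cs[κ].1 + Y cs[κ].2.1 + Y cs[κ].2.2 = rhs b κ

theorem sat_cons (t : α × α × α) (cs : List (α × α × α)) (b : ZMod 2) (Z : Finset α)
    (Y : α → ZMod 2) : Sat (t :: cs) b Z Y ↔
      (t.1 ∈ Z → t.2.1 ∈ Z → t.2.2 ∈ Z → Y t.1 + Y t.2.1 + Y t.2.2 = b) ∧
      ∀ c ∈ cs, c.1 ∈ Z → c.2.1 ∈ Z → c.2.2 ∈ Z → Y c.1 + Y c.2.1 + Y c.2.2 = 0 := by
  constructor
  · intro h
    refine ⟨h 0 (by simp), fun c hc => ?_⟩
    obtain ⟨i, hi, rfl⟩ := List.getElem_of_mem hc
    exact h (i + 1) (by simpa using hi)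
  · rintro ⟨h1, h2⟩ κ hκ
    cases κ with
    | zero => exact h1
    | succ κ => exact h2 _ (List.getElem_mem (by simpa using hκ))

theorem solvable_cons (t : α × α × α) (cs : List (α × α × α)) (b : ZMod 2) :
    Solvable (t :: cs) b ↔ ∃ Y : α → ZMod 2, Y t.1 + Y t.2.1 + Y t.2.2 = b ∧
      ∀ c ∈ cs, Y c.1 + Y c.2.1 + Y c.2.2 = 0 := by
  constructor
  · rintro ⟨Y, h⟩
    refine ⟨Y, h 0 (by simp), fun c hc => ?_⟩
    obtain ⟨i, hi, rfl⟩ := List.getElem_of_mem hc
    exact h (i + 1) (by simpa using hi)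
  · rintro ⟨Y, h1, h2⟩
    refine ⟨Y, fun κ hκ => ?_⟩
    cases κ with
    | zero => exact h1
    | succ κ => exact h2 _ (List.getElem_mem (by simpa using hκ))

variable [DecidableEq α]

/-- a consistent family of partial assignments of width `w` (only the values of `Y` on `Z`
matter) -/
structure IsCons (cs : List (α × α × α)) (b : ZMod 2) (w : ℕ)
    (Good : Finset α → (α → ZMod 2) → Prop) : Prop where
  ne : ∃ Y, Good ∅ Y
  sub : ∀ {Z Z' Y}, Good Z Y → Z' ⊆ Z → Good Z' Y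
  ext : ∀ {Z Y}, Good Z Y → Z.card < w → ∀ v, Occ cs v →
    ∃ Y', (∀ u ∈ Z, Y' u = Y u) ∧ Good (insert v Z) Y'
  sat : ∀ {Z Y}, Good Z Y → Sat cs b Z Y

/-- the system is consistent for width `w` -/
def Cons (cs : List (α × α × α)) (b : ZMod 2) (w : ℕ) : Prop := ∃ Good, IsCons cs b w Good

/-- width `w` forces `b = 0` and all values `0` -/
def Rigid (cs : List (α × α × α)) (w : ℕ) : Prop :=
  ∀ b Good, IsCons cs b w Good → b = 0 ∧ ∀ Z Y, Good Z Y → ∀ v ∈ Z, Occ cs v → Y v = 0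

theorem IsCons.mono {cs : List (α × α × α)} {b : ZMod 2} {w w' : ℕ} {Good}
    (h : IsCons cs b w Good) (hw : w' ≤ w) : IsCons cs b w' Good :=
  ⟨h.ne, h.sub, fun hg hc => h.ext hg (hc.trans_le hw), h.sat⟩

theorem Cons.mono {cs : List (α × α × α)} {b : ZMod 2} {w w' : ℕ} (h : Cons cs b w) (hw : w' ≤ w) :
    Cons cs b w' := by
  obtain ⟨G, hG⟩ := h; exact ⟨G, hG.mono hw⟩

theorem Rigid.mono {cs : List (α × α × α)} {w w' : ℕ} (h : Rigid cs w) (hw : w ≤ w') :
    Rigid cs w' := fun b G hG => h b G (hG.mono hw)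

/-- the variables of a system, without repetition -/
def xvars (cs : List (α × α × α)) : List α := (cs.flatMap fun c => [c.1, c.2.1, c.2.2]).dedup

/-- the system with variables renamed to `0, …, (xvars cs).length - 1` -/
def natCons (cs : List (α × α × α)) : List (ℕ × ℕ × ℕ) :=
  cs.map fun c => ((xvars cs).idxOf c.1, (xvars cs).idxOf c.2.1, (xvars cs).idxOf c.2.2)

end Crest.Agent.R290
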